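import Mathlib
import Vale.Agent.Lib.P031.Defs
import Vale.Agent.Lib.P031.Basic

open Filter Topology Real Vale.Agent.Lib.P031

namespace Vale.Agent.Results.P031.RatioClusterAndLogMean

/-- For every fixed `c > 1`: (1) `c` is a cluster value of `V(cx)/V(x)` as `x → ∞`;
(2) hence `c` is the only possible limit; (3) the logarithmic mean of `log (V(cx)/V(x))`
tends to `log c`. -/
theorem result (c : ℝ) (hc : 1 < c) :
    (∀ ε > 0, ∀ X : ℝ, ∃ x ≥ X, |(V (c * x) : ℝ) / V x - c| < ε) ∧
    (∀ l : ℝ, Tendsto (fun x : ℝ => (V (c * x) : ℝ) / V x) atTop (𝓝 l) → l = c) ∧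
    Tendsto (fun X : ℝ => (∫ x in (1 : ℝ)..X, log ((V (c * x) : ℝ) / V x) / x) / log X)
      atTop (𝓝 (log c)) := by
  refine ⟨fun ε hε X => ?_, fun l hl => ?_, log_average hc⟩
  · obtain ⟨x, hx, h⟩ := ratio_cluster hc hε X
    exact ⟨x, hx, h⟩
  · by_contra hne
    have hpos : 0 < |l - c| / 2 := by
      have : 0 < |l - c| := abs_pos.2 (sub_ne_zero.2 hne)
      linarith
    have hev : ∀ᶠ x : ℝ in atTop, |(V (c * x) : ℝ) / V x - l| < |l - c| / 2 := by
      have := (Metric.tendsto_nhds.1 hl) _ hpos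
      simpa [Real.dist_eq] using this
    obtain ⟨X, hX⟩ := hev.exists_forall_of_atTop
    obtain ⟨x, hx, h⟩ := ratio_cluster hc hpos X
    have h1 := hX x hx
    have h2 : |l - c| ≤ |(V (c * x) : ℝ) / V x - l| + |(V (c * x) : ℝ) / V x - c| := by
      have : l - c = -((V (c * x) : ℝ) / V x - l) + ((V (c * x) : ℝ) / V x - c) := by ring
      rw [this]
      refine (abs_add_le _ _).trans ?_
      rw [abs_neg]
    linarith

end Vale.Agent.Results.P031.RatioClusterAndLogMean
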