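import Mathlib
import Vale.Agent.Lib.P031.Defs
import Vale.Agent.Lib.P031.Basic

open Filter Topology Real Vale.Agent.Lib.P031

namespace Vale.Agent.Results.P031.ScaleDichotomy

/-- the Erdős–Hall relation for the fixed dilation factor `c` -/
def ErdosHall (c : ℝ) : Prop :=
  Tendsto (fun x : ℝ => (V (c * x) : ℝ) / V x) atTop (𝓝 c)

lemma V_pos_real {x : ℝ} (hx : 1 ≤ x) : (0 : ℝ) < V x := by exact_mod_cast one_le_V hx

lemma eh_one : ErdosHall 1 := by
  apply tendsto_const_nhds.congr'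
  filter_upwards [eventually_ge_atTop 1] with x hx
  rw [one_mul, div_self (V_pos_real hx).ne']

lemma eh_mul {c d : ℝ} (hd : 0 < d) (h1 : ErdosHall c) (h2 : ErdosHall d) :
    ErdosHall (c * d) := by
  have hdx : Tendsto (fun x : ℝ => d * x) atTop atTop := tendsto_id.const_mul_atTop hd
  have h3 := (h1.comp hdx).mul h2
  apply h3.congr'
  filter_upwards [eventually_ge_atTop (1 / d)] with x hx
  have hdx1 : 1 ≤ d * x := by
    rw [div_le_iff₀ hd] at hx
    linarith
  have := (V_pos_real hdx1).ne'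
  simp only [Function.comp]
  rw [mul_assoc]
  field_simp

lemma eh_inv {c : ℝ} (hc : 0 < c) (h1 : ErdosHall c) : ErdosHall c⁻¹ := by
  have hcx : Tendsto (fun x : ℝ => c⁻¹ * x) atTop atTop :=
    tendsto_id.const_mul_atTop (inv_pos.2 hc)
  have h3 := (h1.comp hcx).inv₀ hc.ne'
  apply h3.congr
  intro x
  simp only [Function.comp]
  rw [inv_div, mul_inv_cancel_left₀ hc.ne']

/-- the additive group of logarithms of admissible dilation factors -/
def G : AddSubgroup ℝ where
  carrier := {h | ErdosHall (exp h)}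
  zero_mem' := by
    show ErdosHall (exp 0)
    rw [exp_zero]; exact eh_one
  add_mem' := by
    intro a b ha hb
    show ErdosHall (exp (a + b))
    rw [exp_add]; exact eh_mul (exp_pos b) ha hb
  neg_mem' := by
    intro a ha
    show ErdosHall (exp (-a))
    rw [exp_neg]; exact eh_inv (exp_pos a) ha

lemma mem_G {h : ℝ} : h ∈ G ↔ ErdosHall (exp h) := Iff.rfl

lemma ratio_mono {s c x : ℝ} (hsc : s ≤ c) (hx : 0 ≤ x) :
    (V (s * x) : ℝ) / V x ≤ (V (c * x) : ℝ) / V x := by
  apply div_le_div_of_nonneg_right _ (Nat.cast_nonneg _)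
  exact_mod_cast V_mono (mul_le_mul_of_nonneg_right hsc hx)

lemma eh_of_dense (hG : Dense (G : Set ℝ)) {c : ℝ} (hc : 0 < c) : ErdosHall c := by
  rw [ErdosHall, tendsto_order]
  constructor
  · intro a ha
    set a' := max a (c / 2) with ha'
    have ha'pos : 0 < a' := lt_of_lt_of_le (by positivity) (le_max_right _ _)
    have ha'c : a' < c := max_lt ha (by linarith)
    obtain ⟨h, hhG, h1, h2⟩ := hG.exists_between (log_lt_log ha'pos ha'c)
    have hs1 : a' < exp h := (log_lt_iff_lt_exp ha'pos).1 h1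
    have hs2 : exp h < c := (lt_log_iff_exp_lt hc).1 h2
    have hev : ∀ᶠ x : ℝ in atTop, a < (V (exp h * x) : ℝ) / V x :=
      (tendsto_order.1 (mem_G.1 hhG)).1 a (lt_of_le_of_lt (le_max_left _ _) hs1)
    filter_upwards [hev, eventually_ge_atTop 0] with x hx hx0
    exact lt_of_lt_of_le hx (ratio_mono hs2.le hx0)
  · intro a ha
    obtain ⟨h, hhG, h1, h2⟩ := hG.exists_between (log_lt_log hc ha)
    have hs1 : c < exp h := (log_lt_iff_lt_exp hc).1 h1
    have hs2 : exp h < a := (lt_log_iff_exp_lt (hc.trans ha)).1 h2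
    have hev : ∀ᶠ x : ℝ in atTop, (V (exp h * x) : ℝ) / V x < a :=
      (tendsto_order.1 (mem_G.1 hhG)).2 a hs2
    filter_upwards [hev, eventually_ge_atTop 0] with x hx hx0
    exact lt_of_le_of_lt (ratio_mono hs1.le hx0) hx

lemma exp_zpow' (x : ℝ) (k : ℤ) : exp x ^ k = exp (x * k) := by
  rw [← rpow_intCast, ← exp_mul]

theorem dichotomy : (∀ c : ℝ, 0 < c → ErdosHall c) ∨
    (∃ c0 : ℝ, 1 ≤ c0 ∧ ∀ c : ℝ, 0 < c → (ErdosHall c ↔ ∃ k : ℤ, c = c0 ^ k)) := by
  rcases AddSubgroup.dense_or_cyclic G with hd | ⟨a, ha⟩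
  · left
    exact fun c hc => eh_of_dense hd hc
  · right
    refine ⟨exp |a|, one_le_exp (abs_nonneg a), ?_⟩
    intro c hc
    have h1 : ErdosHall c ↔ log c ∈ G := by rw [mem_G, exp_log hc]
    rw [h1, ha, AddSubgroup.mem_closure_singleton]
    constructor
    · rintro ⟨k, hk⟩
      rcases le_total 0 a with h0 | h0
      · refine ⟨k, ?_⟩
        rw [abs_of_nonneg h0, exp_zpow', ← exp_log hc, ← hk]
        simp [mul_comm]
      · refine ⟨-k, ?_⟩
        rw [abs_of_nonpos h0, exp_zpow', ← exp_log hc, ← hk]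
        simp [mul_comm]
    · rintro ⟨k, hk⟩
      rcases le_total 0 a with h0 | h0
      · refine ⟨k, ?_⟩
        rw [hk, abs_of_nonneg h0, exp_zpow', log_exp]
        simp [mul_comm]
      · refine ⟨-k, ?_⟩
        rw [hk, abs_of_nonpos h0, exp_zpow', log_exp]
        simp [mul_comm]

theorem two_three (h2 : ErdosHall 2) (h3 : ErdosHall 3) : ∀ c : ℝ, 0 < c → ErdosHall c := by
  rcases dichotomy with h | ⟨c0, hc0, h⟩
  · exact h
  · exfalso
    obtain ⟨k, hk⟩ := (h 2 two_pos).1 h2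
    obtain ⟨l, hl⟩ := (h 3 three_pos).1 h3
    have hc0pos : 0 < c0 := by linarith
    -- k and l are positive
    have hkpos : 0 < k := by
      by_contra hcon
      rw [not_lt] at hcon
      have : c0 ^ k ≤ 1 := zpow_le_one_of_nonpos₀ hc0 hcon
      linarith
    have hlpos : 0 < l := by
      by_contra hcon
      rw [not_lt] at hcon
      have : c0 ^ l ≤ 1 := zpow_le_one_of_nonpos₀ hc0 hcon
      linarith
    have hkey : (2 : ℝ) ^ l = 3 ^ k := by
      rw [hk, hl, ← zpow_mul, ← zpow_mul, mul_comm]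
    obtain ⟨k', rfl⟩ : ∃ k' : ℕ, k = k' := ⟨k.toNat, (Int.toNat_of_nonneg hkpos.le).symm⟩
    obtain ⟨l', rfl⟩ : ∃ l' : ℕ, l = l' := ⟨l.toNat, (Int.toNat_of_nonneg hlpos.le).symm⟩
    rw [zpow_natCast, zpow_natCast] at hkey
    have hnat : (2 : ℕ) ^ l' = 3 ^ k' := by exact_mod_cast hkey
    have hl' : 0 < l' := by exact_mod_cast hlpos
    have heven : Even ((2 : ℕ) ^ l') := (Nat.even_pow.2 ⟨even_two, hl'.ne'⟩)
    have hodd : Odd ((3 : ℕ) ^ k') := Odd.pow (by decide)
    rw [hnat] at heven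
    exact (Nat.not_even_iff_odd.2 hodd) heven

/-- The set of dilation factors `c > 0` for which `V(cx)/V(x) → c` is either all of `(0,∞)` or a
cyclic group `{c0^k}`; in particular the cases `c = 2` and `c = 3` imply all cases. -/
theorem result :
    ((∀ c : ℝ, 0 < c → ErdosHall c) ∨
      (∃ c0 : ℝ, 1 ≤ c0 ∧ ∀ c : ℝ, 0 < c → (ErdosHall c ↔ ∃ k : ℤ, c = c0 ^ k))) ∧
    (ErdosHall 2 → ErdosHall 3 → ∀ c : ℝ, 0 < c → ErdosHall c) :=
  ⟨dichotomy, two_three⟩

end Vale.Agent.Results.P031.ScaleDichotomy
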