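import Mathlib
import Vale.Agent.Lib.P031.Defs
import Vale.Agent.Results.P031.RatioClusterAndLogMean
import Vale.Agent.Results.P031.ScaleDichotomy

open Filter Topology Real Vale.Agent.Lib.P031

namespace Vale.Agent.Results.P031.A_Combined

/-- Unconditional facts on the Erdős–Hall question `V(cx)/V(x) → c`.
(A) For every fixed `c > 1`: `c` is a cluster value of `V(cx)/V(x)`, it is the only possible limit,
and the logarithmic mean of `log (V(cx)/V(x))` tends to `log c`.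
(B) The set of `c > 0` with `V(cx)/V(x) → c` is all of `(0,∞)` or a cyclic group `{c0^k}`.
(C) The cases `c = 2` and `c = 3` imply all cases. -/
theorem result :
    (∀ c : ℝ, 1 < c →
      (∀ ε > 0, ∀ X : ℝ, ∃ x ≥ X, |(V (c * x) : ℝ) / V x - c| < ε) ∧
      (∀ l : ℝ, Tendsto (fun x : ℝ => (V (c * x) : ℝ) / V x) atTop (𝓝 l) → l = c) ∧
      Tendsto (fun X : ℝ => (∫ x in (1 : ℝ)..X, log ((V (c * x) : ℝ) / V x) / x) / log X)
        atTop (𝓝 (log c))) ∧
    ((∀ c : ℝ, 0 < c → ScaleDichotomy.ErdosHall c) ∨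
      (∃ c0 : ℝ, 1 ≤ c0 ∧ ∀ c : ℝ, 0 < c →
        (ScaleDichotomy.ErdosHall c ↔ ∃ k : ℤ, c = c0 ^ k))) ∧
    (ScaleDichotomy.ErdosHall 2 → ScaleDichotomy.ErdosHall 3 →
      ∀ c : ℝ, 0 < c → ScaleDichotomy.ErdosHall c) :=
  ⟨fun c hc => RatioClusterAndLogMean.result c hc, ScaleDichotomy.result.1,
    ScaleDichotomy.result.2⟩

end Vale.Agent.Results.P031.A_Combined
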